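import Vale.Agent.P353.PotId
import Vale.Agent.P353.A1
import Vale.Agent.P353.A2
import Vale.Agent.P353.My1
import Vale.Agent.P353.My2
import Vale.Agent.P353.Spec
import Vale.Agent.P353.Const
import Vale.Agent.P353.Ev
import Vale.Agent.P353.Prod
import Vale.Agent.P353.Sg
import Vale.Agent.P353.Orba
import Vale.Agent.P353.Orbb
import Vale.Agent.P353.Charta
import Vale.Agent.P353.Chartb
import Vale.Agent.P353.S1
import Vale.Agent.P353.Slice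
import Vale.Agent.P353.Ext
import Vale.Agent.P353.Lm1a
import Vale.Agent.P353.Lm1b
import Vale.Agent.P353.Lmea
import Vale.Agent.P353.Lmeb
import Vale.Agent.P353.Lm2
import Vale.Agent.P353.Lm3a
import Vale.Agent.P353.Lm3b
import Vale.Agent.P353.Lm4
import Vale.Agent.P353.Lama
import Vale.Agent.P353.Lamb
import Vale.Agent.P353.Tb
import Vale.Agent.P353.Si
import Vale.Agent.P353.Rpt
import Vale.Agent.P353.R2
import Vale.Agent.P353.Loc2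
import Vale.Agent.P353.Exp
import Vale.Agent.P353.Exc
import Vale.Agent.P353.Loc3
import Vale.Agent.P353.Ub0
import Vale.Agent.P353.Mul
import Vale.Agent.P353.Nc1
import Vale.Agent.P353.Nc2
import Vale.Agent.P353.Ub
import Vale.Agent.P353.Apx
import Vale.Agent.P353.Wib
import Vale.Agent.P353.Wil
import Vale.Agent.P353.Wif
import Vale.Agent.P353.Sec
import Vale.Agent.P353.Amp0
import Vale.Agent.P353.Amp1
import Vale.Agent.P353.Conv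
import Vale.Agent.P353.Cco
import Vale.Agent.P353.Ch
import Vale.Agent.P353.Ni
import Vale.Agent.P353.Core
import Vale.Agent.P353.D2
import Vale.Agent.P353.D3
import Vale.Agent.P353.Du1
import Vale.Agent.P353.Dl1
import Vale.Agent.P353.Dl2
import Vale.Agent.P353.Dg
import Vale.Agent.P353.La1
import Vale.Agent.P353.La
import Vale.Agent.P353.Loch
import Vale.Agent.P353.Lq
import Vale.Agent.P353.Lo
import Vale.Agent.P353.Up
import Vale.Agent.P353.Main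

/-! Assembly. -/

namespace Vale.Agent.P353

namespace Ctx

variable {N d : ℕ} {F : Type} [NormedAddCommGroup F] [InnerProductSpace ℂ F]
  [FiniteDimensional ℂ F] (c : Ctx N d F)

theorem t_potid : c.S_potid :=
  c.p_potid

theorem t_a1 : c.S_a1 :=
  c.p_a1 c.t_potid

theorem t_a2 : c.S_a2 :=
  c.p_a2

theorem t_myp : c.S_myp :=
  c.p_myp

theorem t_my1 : c.S_my1 :=
  c.p_my1

theorem t_cr : c.S_cr :=
  c.p_cr

theorem t_crd : c.S_crd :=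
  c.p_crd

theorem t_my2 : c.S_my2 :=
  c.p_my2

theorem t_spec : c.S_spec :=
  c.p_spec c.t_a1 c.t_a2 c.t_my1

theorem t_const : c.S_const :=
  c.p_const c.t_my1 c.t_spec

theorem t_fd : c.S_fd :=
  c.p_fd c.t_spec c.t_const

theorem t_ev : c.S_ev :=
  c.p_ev c.t_spec

theorem t_prod : c.S_prod :=
  c.p_prod

theorem t_sg : c.S_sg :=
  c.p_sg c.t_prod c.t_ev

theorem t_orba : c.S_orba :=
  c.p_orba

theorem t_orbb : c.S_orbb :=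
  c.p_orbb

theorem t_charta : c.S_charta :=
  c.p_charta

theorem t_chartb : c.S_chartb :=
  c.p_chartb

theorem t_lm1a : c.S_lm1a :=
  c.p_lm1a

theorem t_orb : c.S_orb := ⟨c.t_orba, c.t_orbb⟩

theorem t_s1 : c.S_s1 :=
  c.p_s1 c.t_lm1a c.t_orb

theorem t_slice : c.S_slice :=
  c.p_slice

theorem t_chart : c.S_chart := ⟨c.t_charta, c.t_chartb⟩

theorem t_ext : c.S_ext :=
  c.p_ext c.t_slice c.t_chart

theorem t_lm1b : c.S_lm1b :=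
  c.p_lm1b c.t_lm1a

theorem t_lmea : c.S_lmea :=
  c.p_lmea

theorem t_lm1 : c.S_lm1 := ⟨c.t_lm1a, c.t_lm1b⟩

theorem t_lm3a : c.S_lm3a :=
  c.p_lm3a c.t_lm1

theorem t_lm4 : c.S_lm4 :=
  c.p_lm4 c.t_lm1 c.t_lmea c.t_lm3a c.t_orb

theorem t_lama : c.S_lama :=
  c.p_lama c.t_lm1 c.t_lm3a c.t_lm4 c.t_orb

theorem t_lmeb : c.S_lmeb :=
  c.p_lmeb c.t_lmea c.t_lama

theorem t_lm2 : c.S_lm2 :=
  c.p_lm2 c.t_lm1

theorem t_lm3b : c.S_lm3b :=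
  c.p_lm3b c.t_lm1 c.t_lmea c.t_lm3a

theorem t_lamb : c.S_lamb :=
  c.p_lamb c.t_lm1 c.t_lmea c.t_lama c.t_orb

theorem t_tb : c.S_tb :=
  c.p_tb c.t_lm1 c.t_lmea c.t_s1

theorem t_si : c.S_si :=
  c.p_si c.t_lm1 c.t_tb

theorem t_rpt : c.S_rpt :=
  c.p_rpt c.t_lm1 c.t_lm2

theorem t_lm3 : c.S_lm3 := ⟨c.t_lm3a, c.t_lm3b⟩

theorem t_r2 : c.S_r2 :=
  c.p_r2 c.t_lm1 c.t_lm3

theorem t_loc2 : c.S_loc2 :=
  c.p_loc2 c.t_lm1 c.t_lm2 c.t_s1 c.t_cr c.t_tb c.t_si c.t_rpt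

theorem t_exp : c.S_exp :=
  c.p_exp c.t_lm1 c.t_lm2

theorem t_exc : c.S_exc :=
  c.p_exc c.t_lm1 c.t_lm2 c.t_orb c.t_chart c.t_s1 c.t_cr c.t_tb c.t_exp

theorem t_loc3 : c.S_loc3 :=
  c.p_loc3 c.t_lm1 c.t_orb c.t_chart c.t_tb c.t_exc

theorem t_ub0 : c.S_ub0 :=
  c.p_ub0 c.t_orb c.t_chart c.t_lm1a

theorem t_lam : c.S_lam := ⟨c.t_lama, c.t_lamb⟩

theorem t_mul : c.S_mul :=
  c.p_mul c.t_lm1 c.t_lm3a c.t_orb c.t_lam c.t_ub0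

theorem t_nc1 : c.S_nc1 :=
  c.p_nc1 c.t_lm1 c.t_lm3 c.t_orb c.t_lam c.t_tb c.t_s1 c.t_ub0

theorem t_nc2 : c.S_nc2 :=
  c.p_nc2 c.t_lm1 c.t_lm3 c.t_orb c.t_lam c.t_ub0 c.t_s1

theorem t_nc : c.S_nc :=
  c.p_nc c.t_orb c.t_nc1 c.t_nc2

theorem t_ub : c.S_ub :=
  c.p_ub c.t_lm1 c.t_lmea c.t_lm4 c.t_orb c.t_lam c.t_tb c.t_cr c.t_nc

theorem t_apx : c.S_apx :=
  c.p_apx c.t_lmea

theorem t_wib : c.S_wib :=
  c.p_wib c.t_lm1 c.t_s1 c.t_tb c.t_si c.t_rpt c.t_r2 c.t_exc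

theorem t_wil : c.S_wil :=
  c.p_wil c.t_lm1 c.t_lmea c.t_lm4 c.t_lam c.t_tb c.t_apx c.t_wib

theorem t_wif : c.S_wif :=
  c.p_wif c.t_lm4 c.t_orb c.t_lam c.t_tb c.t_cr c.t_nc c.t_wil c.t_lm1a

theorem t_sec : c.S_sec :=
  c.p_sec c.t_lm4

theorem t_amp0 : c.S_amp0 :=
  c.p_amp0 c.t_lm4 c.t_lam c.t_mul c.t_ub c.t_wif c.t_sec

theorem t_amp1 : c.S_amp1 :=
  c.p_amp1 c.t_lm4 c.t_lam c.t_ub c.t_wif c.t_sec

theorem t_conv : c.S_conv :=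
  c.p_conv c.t_lm1 c.t_lmea c.t_lm4 c.t_orb c.t_lam c.t_ub

theorem t_cco : c.S_cco :=
  c.p_cco c.t_lm1a c.t_orb c.t_tb c.t_cr c.t_loc2 c.t_loc3 c.t_nc

theorem t_ch : c.S_ch :=
  c.p_ch c.t_lm4 c.t_lam c.t_mul c.t_amp0 c.t_conv

theorem t_ni : c.S_ni :=
  c.p_ni

theorem t_core : c.S_core :=
  c.p_core c.t_lam

theorem t_cc : c.S_cc :=
  c.p_cc c.t_cco c.t_ch c.t_ni c.t_core

theorem t_d2 : c.S_d2 :=
  c.p_d2

theorem t_d3 : c.S_d3 :=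
  c.p_d3

theorem t_dl1 : c.S_dl1 :=
  c.p_dl1 c.t_orb c.t_chart

theorem t_du1 : c.S_du1 :=
  c.p_du1 c.t_orb c.t_chart c.t_myp c.t_crd c.t_dl1

theorem t_dl2 : c.S_dl2 :=
  c.p_dl2 c.t_orb c.t_ext

theorem t_du : c.S_du :=
  c.p_du c.t_myp c.t_crd c.t_d2 c.t_d3 c.t_du1 c.t_dl1

theorem t_dl : c.S_dl :=
  c.p_dl c.t_spec c.t_d2 c.t_d3 c.t_dl1 c.t_dl2

theorem t_la1 : c.S_la1 :=
  c.p_la1 c.t_lm1 c.t_lmea c.t_orb c.t_ext

theorem t_la : c.S_la :=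
  c.p_la c.t_lm1 c.t_lm4 c.t_orb c.t_lam c.t_tb c.t_nc c.t_la1

theorem t_lme : c.S_lme := ⟨c.t_lmea, c.t_lmeb⟩

theorem t_loch : c.S_loch :=
  c.p_loch c.t_lme c.t_lm4 c.t_orb c.t_lam c.t_la

theorem t_lq : c.S_lq :=
  c.p_lq c.t_lm4 c.t_lam c.t_ub

theorem t_lo : c.S_lo :=
  c.p_lo c.t_lm4 c.t_orb c.t_lam c.t_spec c.t_sg c.t_wif c.t_loch c.t_lq c.t_lmea

theorem t_up : c.S_up :=
  c.p_up c.t_lme c.t_lm4 c.t_orb c.t_lam c.t_my2 c.t_mul c.t_amp1 c.t_conv c.t_cc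

theorem t_main : c.S_main :=
  c.p_main c.t_const c.t_fd c.t_du c.t_dl c.t_lo c.t_up

end Ctx

end Vale.Agent.P353
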